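import Vale.Agent.P011UD5.Kit
import Vale.Agent.P011U.Top
import Vale.Agent.P011.H268.LangC2Cor
import Vale.Agent.P011LZ.Main

/-!
Quaternions with a given norm.
-/

set_option linter.all false
set_option maxSynthPendingDepth 3

namespace Vale.Agent.P011UD6

open Vale.Agent.P011L Vale.Agent.P011U Vale.Agent.P011UD5 QuadraticMap Module

theorem iso (H : HM5) {E W : Type} [Field E] (hE : Glob E) [AddCommGroup W] [Module E W]
    [FiniteDimensional E W] (q : QuadraticForm E W) (h5 : 5 ≤ finrank E W)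
    (h : ∀ φ : E →+* ℝ, (∃ v, 0 < φ (q v)) ∧ ∃ v, φ (q v) < 0) : ∃ v, v ≠ 0 ∧ q v = 0 := by
  rcases hE with e | ⟨F, _, _, _, _⟩
  · exact H E W q h5 h
  · exact P011.H268.exists_isotropic_quadraticMap F (RatFunc F) q (by rw [finrank_self]; omega)

theorem nf_of {k : Type} [Field k] (h : Glob k) (φ : k →+* ℝ) : NumberField k := by
  rcases h with e | ⟨F, _, _, _, _⟩
  · exact e
  · haveI := ((φ.comp (algebraMap (RatFunc F) k)).comp (algebraMap F (RatFunc F))).charZero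
    exact (not_finite F).elim

variable {k L V : Type} [Field k] [Field L] [Algebra k L] [AddCommGroup V] [Module L V]
  (S : QJ k L V)

theorem sec : ∃ π : L →ₗ[k] k, (∀ a, π (algebraMap k L a) = a) ∧
    ∀ t, S.σ t = t → algebraMap k L (π t) = t := by
  obtain ⟨π, h⟩ := P011.H268.exists_section k L
  refine ⟨π, h, fun t ht => ?_⟩
  obtain ⟨c, rfl⟩ := fix S ht
  rw [h]

theorem gen : ∃ θ, S.σ θ ≠ θ ∧ θ + S.σ θ ≠ 0 := by
  obtain ⟨θ, h⟩ := ex_mv S
  by_cases e : θ + S.σ θ = 0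
  · refine ⟨θ + 1, by simpa using h, fun e' => h ?_⟩
    rw [map_add, map_one] at e'
    linear_combination e - θ * (e' - e)
  · exact ⟨θ, h, e⟩

theorem ex0 (H : HM5) (hk : Glob k) {l : k} (h : ∀ φ : k →+* ℝ, 0 < φ l ∨ 0 < φ S.b) :
    ∃ x y : L, x * S.σ x - bb S * (y * S.σ y) = algebraMap k L l := by
  haveI := fd S
  obtain ⟨π, p1, p2⟩ := sec S
  let n : QuadraticForm k L := LinearMap.BilinMap.toQuadraticMap
    (((LinearMap.mul k L).compl₂ S.σ.toLinearMap).compr₂ π)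
  have hn : ∀ x, algebraMap k L (n x) = x * S.σ x := fun x => p2 _ (by simp [mul_comm])
  have n0 : n 1 = 1 := (algebraMap k L).injective (by simp [hn])
  obtain ⟨⟨x, y, w⟩, v0, e⟩ := iso H hk (n.prod (((-S.b) • n).prod ((-l) • QuadraticMap.sq)))
    (by simp [S.two]) fun φ => ⟨⟨(1, 0, 0), by simp [n0]⟩, (h φ).elim
      (fun a => ⟨(0, 0, 1), by simpa using a⟩) fun a => ⟨(0, 1, 0), by simpa [n0] using a⟩⟩
  have e' := congrArg (algebraMap k L) e
  simp only [prod_apply, QuadraticMap.smul_apply, sq_apply, smul_eq_mul, map_add, map_mul, map_neg,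
    hn, map_zero] at e'
  have w0 : algebraMap k L w ≠ 0 := fun w0 => by
    obtain ⟨rfl, rfl⟩ := nrd_zero S (a := y) (c := x) (by
      rw [w0] at e'; unfold bb; linear_combination -e')
    exact v0 (by rw [(map_eq_zero _).1 w0]; rfl)
  refine ⟨x / algebraMap k L w, y / algebraMap k L w, ?_⟩
  simp only [map_div₀, AlgEquiv.commutes, bb]
  field_simp
  linear_combination e'

/-- The quaternion x + y J has the norm l c ^ 2. -/
def Nq (l x y c : L) : Prop :=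
  S.σ c = c ∧ c ≠ 0 ∧ x * S.σ x - bb S * (y * S.σ y) = l * (c * c)

theorem exA {l x y : L} (hl : l ≠ 0) (h : x * S.σ x - bb S * (y * S.σ y) = l) :
    ∃ x y c, Nq S l x y c ∧ y ≠ 0 ∧ x + S.σ x ≠ 0 := by
  obtain ⟨θ, t1, t2⟩ := gen S
  have t0 : θ ≠ 0 := fun e => t1 (by simp [e])
  have t3 : θ * θ + bb S ≠ 0 := fun e => by
    have e' := congrArg S.σ e
    rw [map_add, map_mul, s_bb, map_zero] at e'
    exact mul_ne_zero (sub_ne_zero.2 t1) t2 (by linear_combination e' - e)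
  have t4 : θ * S.σ θ - bb S ≠ 0 := fun e => S.div θ (sub_eq_zero.1 e)
  have s0 : ∀ {a : L}, a ≠ 0 → S.σ a ≠ 0 := fun h => by simpa using h
  obtain ⟨x, y, c, ⟨c1, c2, c3⟩, x0, y0⟩ : ∃ x y c, Nq S l x y c ∧ x ≠ 0 ∧ y ≠ 0 := by
    by_cases y0 : y = 0
    · have x0 : x ≠ 0 := fun e => hl (by simp [← h, e, y0])
      refine ⟨x * (θ * θ + bb S), x * (θ + S.σ θ), θ * S.σ θ - bb S, ⟨by simp [mul_comm], t4, ?_⟩,
        mul_ne_zero x0 t3, mul_ne_zero x0 t2⟩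
      simp only [map_mul, map_add, ss, s_bb, ← h, y0]
      ring
    by_cases x0 : x = 0
    · refine ⟨bb S * y * (θ + S.σ θ), y * S.σ (θ * θ + bb S), θ * S.σ θ - bb S,
        ⟨by simp [mul_comm], t4, ?_⟩, mul_ne_zero (mul_ne_zero (bb_ne S) y0) t2,
        mul_ne_zero y0 (s0 t3)⟩
      simp only [map_mul, map_add, ss, s_bb, ← h, x0]
      ring
    · exact ⟨x, y, 1, ⟨map_one _, one_ne_zero, by rw [h]; ring⟩, x0, y0⟩
  by_cases e : x + S.σ x = 0
  swap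
  · exact ⟨x, y, c, ⟨c1, c2, c3⟩, y0, e⟩
  have k : ∀ z, z ≠ 0 → x * (z * z) + S.σ (x * (z * z)) ≠ 0 →
      ∃ x y c, Nq S l x y c ∧ y ≠ 0 ∧ x + S.σ x ≠ 0 := fun z z0 hz =>
    ⟨x * (z * z), y * (z * z), c * (z * S.σ z), ⟨by simp [c1, mul_comm],
      mul_ne_zero c2 (mul_ne_zero z0 (s0 z0)), by
        simp only [map_mul]
        linear_combination (z * S.σ z) ^ 2 * c3⟩, mul_ne_zero y0 (mul_ne_zero z0 z0), hz⟩
  refine k θ t0 fun e' => mul_ne_zero x0 (mul_ne_zero (sub_ne_zero.2 t1) t2) ?_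
  simp only [map_mul] at e'
  linear_combination S.σ θ * S.σ θ * e - e'

open ComplexConjugate in
theorem real_pt {b l : ℝ} (hb : 0 < b) (hl : 0 < l) (x0 y0 : ℂ) : ∃ X Y : ℂ,
    X * conj X - b * (Y * conj Y) - l = 0 ∧ Y ≠ 0 ∧ X + conj X ≠ 0 ∧ (X + conj X) ^ 2 = l ∧
    X * conj x0 + conj X * x0 - b * (Y * conj y0 + conj Y * y0) - 2 * l ≠ 0 := by
  let X : ℂ := ⟨√l / 2, √(3 / 4 * l + b)⟩
  have a1 : X * conj X = l + b := by
    rw [Complex.mul_conj, Complex.normSq_mk, Real.mul_self_sqrt (by positivity), ← Complex.ofReal_add]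
    congr 1
    linear_combination Real.mul_self_sqrt hl.le / 4
  have a2 : X + conj X = √l := by
    rw [Complex.add_conj]
    congr 1
    simp only [X]
    ring
  have a3 : ((√l : ℝ) : ℂ) ≠ 0 := by simpa using Real.sqrt_ne_zero'.2 hl
  have a4 : ((√l : ℝ) : ℂ) ^ 2 = l := by rw [← Complex.ofReal_pow, Real.sq_sqrt hl.le]
  have l0 : (l : ℂ) ≠ 0 := by simpa using hl.ne'
  by_cases e : X * conj x0 + conj X * x0 - b * (1 * conj y0 + conj 1 * y0) - 2 * l = 0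
  · refine ⟨-X, -1, by simp [a1], by simp, ?_, ?_, fun e' => l0 ?_⟩
    · rw [map_neg, ← neg_add, a2]; exact neg_ne_zero.2 a3
    · rw [map_neg, ← neg_add, a2, neg_sq, a4]
    · simp only [map_neg, map_one] at e e'
      linear_combination -(e + e') / 4
  · exact ⟨X, 1, by simp [a1], one_ne_zero, a2 ▸ a3, a2 ▸ a4, e⟩

open ComplexConjugate in
theorem exB (hk : Glob k) (hL : NoR L) {l : k} (hl : l ≠ 0) {x y : L}
    (h : x * S.σ x - bb S * (y * S.σ y) = algebraMap k L l) :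
    ∃ x y c, Nq S (algebraMap k L l) x y c ∧ y ≠ 0 ∧ x + S.σ x ≠ 0 ∧ ∀ φ τ, Tu S φ τ → 0 < φ l →
      0 < φ S.b → (τ ((x + S.σ x) ^ 2 - 4 * (algebraMap k L l * (c * c)))).re < 0 := by
  by_cases ex : ∃ φ : k →+* ℝ, 0 < φ l ∧ 0 < φ S.b
  swap
  · obtain ⟨x, y, c, a1, a2, a3⟩ := exA S (by simpa using hl) h
    exact ⟨x, y, c, a1, a2, a3, fun φ _ _ a b => (ex ⟨φ, a, b⟩).elim⟩
  obtain ⟨φ0, h0⟩ := ex
  haveI := nf_of hk φ0
  obtain ⟨θ, t1⟩ := ex_mv S
  choose τ hτ using ex_tu S hL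
  let F : ∀ {A : Type} [CommRing A], A → A → A → A → A → A → A → A → A → A → A × A × A × A :=
    fun b l x0 x0' y0 y0' X X' Y Y' =>
      let f := X * X' - b * (Y * Y') - l
      let g := X * x0' + X' * x0 - b * (Y * y0' + Y' * y0) - 2 * l
      (f * x0 - g * X, f * x0' - g * X', f * y0 - g * Y, f - g)
  let P : (k →+* ℝ) → (Fin 4 → ℝ) → ℂ × ℂ × ℂ × ℂ := fun φ r =>
    F (φ S.b : ℂ) (φ l) (τ φ x) (conj (τ φ x)) (τ φ y) (conj (τ φ y)) (r 0 + r 1 * τ φ θ)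
      (r 0 + r 1 * conj (τ φ θ)) (r 2 + r 3 * τ φ θ) (r 2 + r 3 * conj (τ φ θ))
  have cP : ∀ φ, Continuous (P φ) := fun φ => by simp only [P, F]; fun_prop
  obtain ⟨r, hr⟩ := P011LZ.wa (fun φ => {r | 0 < φ l → 0 < φ S.b → (P φ r).2.2.1 ≠ 0 ∧
      (P φ r).1 + (P φ r).2.1 ≠ 0 ∧ (((P φ r).1 + (P φ r).2.1) ^ 2 -
        4 * (φ l * ((P φ r).2.2.2 * (P φ r).2.2.2))).re < 0}) (fun φ => by
    by_cases e : 0 < φ l ∧ 0 < φ S.b
    · simp only [e.1, e.2, true_imp_iff]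
      have c := cP φ
      have c1 := c.fst.add c.snd.fst
      have c2 := c.snd.snd.snd
      exact (isOpen_ne_fun c.snd.snd.fst continuous_const).inter ((isOpen_ne_fun c1
        continuous_const).inter (isOpen_lt (Complex.continuous_re.comp ((c1.pow 2).sub
          (continuous_const.mul (continuous_const.mul (c2.mul c2))))) continuous_const))
    · rw [Set.eq_univ_of_forall (s := {r | 0 < φ l → 0 < φ S.b → _}) fun r a b => (e ⟨a, b⟩).elim]
      exact isOpen_univ) fun φ => by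
    by_cases e : 0 < φ l ∧ 0 < φ S.b
    swap
    · exact ⟨0, fun a b => (e ⟨a, b⟩).elim⟩
    obtain ⟨X, Y, a1, a2, a3, a4, a5⟩ := real_pt e.2 e.1 (τ φ x) (τ φ y)
    have i0 : (τ φ θ).im ≠ 0 := fun i => t1 ((τ φ).injective (by
      rw [(hτ φ).2, Complex.conj_eq_iff_im.2 i]))
    have s : ∀ Z : ℂ, ((Z.re - Z.im / (τ φ θ).im * (τ φ θ).re : ℝ) : ℂ) +
        ((Z.im / (τ φ θ).im : ℝ) : ℂ) * τ φ θ = Z := fun Z => by
      apply Complex.ext <;> simp [-Complex.ofReal_div, -Complex.ofReal_sub, i0]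
    have s' := fun Z => congrArg conj (s Z)
    simp only [map_add, map_mul, Complex.conj_ofReal] at s'
    refine ⟨![X.re - X.im / (τ φ θ).im * (τ φ θ).re, X.im / (τ φ θ).im,
      Y.re - Y.im / (τ φ θ).im * (τ φ θ).re, Y.im / (τ φ θ).im], fun _ _ => ?_⟩
    simp only [P, F, Matrix.cons_val, s, s', a1, zero_mul, zero_sub]
    generalize hg : X * conj (τ φ x) + conj X * τ φ x -
      φ S.b * (Y * conj (τ φ y) + conj Y * τ φ y) - 2 * φ l = g at a5 ⊢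
    have g1 : conj g = g := by
      rw [← hg]
      simp only [map_sub, map_add, map_mul, Complex.conj_conj, Complex.conj_ofReal, map_ofNat]
      ring
    obtain ⟨g, rfl⟩ := Complex.conj_eq_iff_real.1 g1
    refine ⟨neg_ne_zero.2 (mul_ne_zero a5 a2), fun e' => mul_ne_zero a5 a3 (by
      linear_combination -e'), ?_⟩
    rw [show (-(g * X) + -(g * conj X)) ^ 2 - 4 * (φ l * (-g * -g)) = ((-(3 * (φ l * (g * g))) : ℝ) : ℂ)
      by push_cast; linear_combination (g : ℂ) ^ 2 * a4, Complex.ofReal_re]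
    have := mul_pos e.1 (mul_self_pos.2 (show g ≠ 0 by simpa using a5))
    linarith
  obtain ⟨X, hX⟩ : ∃ X, X = algebraMap k L (r 0) + algebraMap k L (r 1) * θ := ⟨_, rfl⟩
  obtain ⟨Y, hY⟩ : ∃ Y, Y = algebraMap k L (r 2) + algebraMap k L (r 3) * θ := ⟨_, rfl⟩
  obtain ⟨p, hp⟩ : ∃ p, p = F (bb S) (algebraMap k L l) x (S.σ x) y (S.σ y) X (S.σ X) Y (S.σ Y) :=
    ⟨_, rfl⟩
  have p1 : S.σ p.1 = p.2.1 ∧ S.σ p.2.2.2 = p.2.2.2 ∧ p.1 * p.2.1 - bb S * (p.2.2.1 * S.σ p.2.2.1) =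
      algebraMap k L l * (p.2.2.2 * p.2.2.2) := by
    simp only [hp, F, map_sub, map_add, map_mul, ss, s_bb, AlgEquiv.commutes, map_ofNat, ← h]
    exact ⟨by ring, by ring, by ring⟩
  have p2 : ∀ φ, (τ φ p.1, τ φ p.2.1, τ φ p.2.2.1, τ φ p.2.2.2) = P φ fun i => φ (r i) := fun φ => by
    simp only [hp, hX, hY, F, P, bb, map_sub, map_add, map_mul, AlgEquiv.commutes, map_ofNat,
      (hτ φ).1, (hτ φ).2]
  have p3 := fun φ a b => (p2 φ).symm ▸ hr φ a b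
  obtain ⟨b1, b2, b3⟩ := p3 φ0 h0.1 h0.2
  have y0 : p.2.2.1 ≠ 0 := fun e => b1 (by simp [e])
  refine ⟨p.1, p.2.2.1, p.2.2.2, ⟨p1.2.1, fun e => y0 (nrd_zero S (c := p.1) ?_).1, p1.1 ▸ p1.2.2⟩,
    y0, fun e => b2 ?_, fun φ τ' t a b => ?_⟩
  · rw [p1.1]
    linear_combination -p1.2.2 - algebraMap k L l * p.2.2.2 * e
  · rw [← map_add, ← p1.1, e, map_zero]
  · obtain ⟨u, hu⟩ := fix S (t := (p.1 + S.σ p.1) ^ 2 - 4 * (algebraMap k L l * (p.2.2.2 * p.2.2.2)))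
      (by simp [p1.2.1, add_comm, map_ofNat])
    rw [← hu, t.1, ← (hτ φ).1, hu, p1.1]
    simpa only [map_sub, map_pow, map_add, map_mul, map_ofNat, (hτ φ).1] using (p3 φ a b).2.2

end Vale.Agent.P011UD6
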