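import Vale.Agent.P011UD6.Be
import Vale.Agent.P011UM5.Main
import Mathlib.Algebra.QuadraticAlgebra.Basic

/-!
Rotations with a given spinor norm.
-/

set_option linter.all false
set_option maxSynthPendingDepth 3

namespace Vale.Agent.P011UD6

open Vale.Agent.P011L Vale.Agent.P011U Vale.Agent.P011UD5 QuadraticMap Module

variable {k L V : Type} [Field k] [Field L] [Algebra k L] [AddCommGroup V] [Module L V]
  (S : QJ k L V)

theorem J_pl (A C : L) (v : V) :
    S.J (A • v + C • S.J v) = (S.σ C * bb S) • v + S.σ A • S.J v := by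
  simp only [map_add, S.smul, JJ]
  module

theorem q_pl (A C : L) (v : V) : S.q (A • v + C • S.J v) =
    A * A * S.q v + A * C * be S v + C * C * (bb S * S.σ (S.q v)) := by
  simp only [QuadraticMap.map_add S.q, QuadraticMap.map_smul, polar_smul_left, polar_smul_right, qJ,
    smul_eq_mul, be]
  ring

theorem be_pl (A C : L) (v : V) : be S (A • v + C • S.J v) =
    (A * S.σ A + bb S * (C * S.σ C)) * be S v +
      2 * bb S * (A * S.σ C * S.q v + C * S.σ A * S.σ (S.q v)) := by
  rw [be, J_pl]
  simp only [polar_add_left, polar_add_right, polar_smul_left, polar_smul_right, B_self, qJ,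
    polar_comm S.q (S.J v) v, smul_eq_mul, be]
  ring

theorem ind {v : V} (hv : v ≠ 0) {c e : L} (h : c • v + e • S.J v = 0) : c = 0 := by
  have h' := congrArg S.J h
  rw [J_pl, map_zero] at h'
  exact (nrd_zero S (a := e) ((smul_eq_zero.1 (show (bb S * (e * S.σ e) - c * S.σ c) • v = 0 by
    linear_combination (norm := module) e • h' - S.σ c • h)).resolve_right hv)).2

theorem all_val {v : V} (hv : v ≠ 0) (q0 : S.q v = 0) (p0 : be S v = 0) (A : L) {C : L}
    (hC : S.σ C = C) : ∃ w, S.q w = A ∧ be S w = C := by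
  have one : ∀ {y : V}, y ≠ 0 → ∃ u, polar S.q y u = 1 := fun {y} hy => by
    obtain ⟨u, hu⟩ : ∃ u, polar S.q y u ≠ 0 := by
      by_contra! h
      exact hy (S.nd y h)
    exact ⟨(polar S.q y u)⁻¹ • u, by rw [polar_smul_right, smul_eq_mul, inv_mul_cancel₀ hu]⟩
  obtain ⟨u2, e2⟩ := one (y := S.J v) fun h => bb_ne S (ind S hv (e := 0) (by simp [← JJ, h]))
  obtain ⟨u1, e1⟩ := one (y := (1 : L) • v + (-polar S.q v u2) • S.J v) fun h =>
    one_ne_zero (ind S hv h)
  obtain ⟨u, a1, a2⟩ : ∃ u, polar S.q v u = 1 ∧ polar S.q (S.J v) u = 0 :=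
    ⟨u1 - polar S.q (S.J v) u1 • u2, by
      simp only [polar_add_left, polar_smul_left, polar_sub_right, polar_smul_right, smul_eq_mul] at *
      linear_combination e1, by simp [polar_sub_right, polar_smul_right, e2]⟩
  obtain ⟨θ, -, T0⟩ := gen S
  have := bb_ne S
  refine ⟨(A - S.q u) • v + (θ * (C - be S u) / bb S / (θ + S.σ θ)) • S.J v + u, ?_, ?_⟩
  · rw [QuadraticMap.map_add S.q, q_pl]
    simp [polar_add_left, polar_smul_left, q0, p0, a1, a2]
  · rw [be_add, be_pl]
    simp only [polar_add_left, polar_smul_left, B_Jr S v, B_JJ, q0, p0, a1, a2, map_div₀, map_mul,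
      map_sub, map_add, hC, s_be, s_bb, ss, smul_eq_mul, map_one, map_zero, add_comm (S.σ θ)]
    field_simp
    ring

theorem nn (hL : NoR L) (φ : k →+* ℝ) {z : L} {u : k} (h : algebraMap k L u = z * S.σ z) :
    0 ≤ φ u := by
  obtain ⟨τ, t⟩ := ex_tu S hL φ
  have := congrArg τ h
  rw [t.1, map_mul, t.2, Complex.mul_conj] at this
  exact Complex.ofReal_injective this ▸ Complex.normSq_nonneg _

theorem exn (z : L) : ∃ u, algebraMap k L u = z * S.σ z := fix S (by simp [mul_comm])

theorem signs (hL : NoR L) (φ : k →+* ℝ) {a : V} {e : k} (he : algebraMap k L e = S.dl a)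
    (h : φ e < 0) : 0 < φ S.b ∧ ∃ v w p r, algebraMap k L p = be S v ∧ algebraMap k L r = be S w ∧
      φ p * φ r < 0 := by
  obtain ⟨n, hn⟩ := exn S (S.q a)
  obtain ⟨p, hp⟩ := fix S (s_be S a)
  have n0 := nn S hL φ hn
  have e1 : φ e = φ p ^ 2 - 4 * (φ S.b * φ n) := by
    rw [(algebraMap k L).injective (a₁ := e) (a₂ := p ^ 2 - 4 * (S.b * n))
      (by simp only [he, dl_eq, map_sub, map_pow, map_mul, map_ofNat, hn, hp, bb])]
    simp only [map_sub, map_pow, map_mul, map_ofNat]
  have b0 : 0 < φ S.b := by nlinarith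
  have val : ∀ s u : k, algebraMap k L ((s * s * n + S.b * (u * u)) * p + 4 * (S.b * n) * (s * u)) =
      be S ((algebraMap k L s * S.σ (S.q a)) • a + algebraMap k L u • S.J a) := fun s u => by
    simp only [be_pl, map_add, map_mul, map_ofNat, hn, hp, bb, ss, AlgEquiv.commutes]
    ring
  refine ⟨b0, ?_⟩
  by_cases p0 : φ p = 0
  · refine ⟨_, _, _, _, val 1 1, val (-1) 1, ?_⟩
    simp only [map_add, map_mul, map_ofNat, map_one, map_neg, p0] at *
    nlinarith
  · refine ⟨_, _, _, _, val 0 1, val (-(2 * S.b)) p, ?_⟩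
    simp only [map_add, map_mul, map_ofNat, map_one, map_neg, map_zero]
    have := mul_neg_of_pos_of_neg (mul_self_pos.2 (mul_ne_zero b0.ne' p0)) h
    rw [e1] at this
    linarith

theorem core (H : HM5) (hk : Glob k) [FiniteDimensional L V] (h6 : 6 ≤ finrank L V) {x y : L}
    {t m : k} (ht : algebraMap k L t = x + S.σ x)
    (hm : algebraMap k L m = x * S.σ x - bb S * (y * S.σ y)) (hy : y ≠ 0) (hL : NoR L)
    (hr : ∀ φ : k →+* ℝ, 4 * φ m ≤ φ t ^ 2 → ∃ v w p r, algebraMap k L p = be S v ∧
      algebraMap k L r = be S w ∧ φ p * φ r < 0) :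
    ∃ v, v ≠ 0 ∧ S.σ y * S.q v + y * S.σ (S.q v) = 0 ∧
      y * S.σ y * be S v - (S.σ x * S.σ y * S.q v + x * y * S.σ (S.q v)) = 0 := by
  haveI : Fact (∀ r, r ^ 2 ≠ -m + t * r) := ⟨fun r e => hy (nrd_zero S (c := x - algebraMap k L r) (by
    have := congrArg (algebraMap k L) e
    simp only [map_sub, map_add, map_mul, map_pow, map_neg, ht, hm, AlgEquiv.commutes] at this ⊢
    linear_combination -this)).1⟩
  haveI := fd S
  let E := QuadraticAlgebra k (-m) t
  letI : Module k V := Module.compHom V (algebraMap k L)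
  haveI : IsScalarTower k L V := IsScalarTower.of_algebraMap_smul fun _ _ => rfl
  letI : SMul E V := ⟨fun e v => (algebraMap k L e.re + algebraMap k L e.im * x) • v +
    (algebraMap k L e.im * y) • S.J v⟩
  have sm : ∀ (e : E) (v : V), e • v = (algebraMap k L e.re + algebraMap k L e.im * x) • v +
    (algebraMap k L e.im * y) • S.J v := fun _ _ => rfl
  letI : Module E V :=
    { one_smul := fun v => by simp [sm, E, QuadraticAlgebra.re_one, QuadraticAlgebra.im_one]
      mul_smul := fun a c v => by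
        simp only [sm, J_pl, E, QuadraticAlgebra.re_mul, QuadraticAlgebra.im_mul, map_add, map_mul,
          map_neg, ht, hm, AlgEquiv.commutes, S.smul, JJ]
        module
      smul_zero := fun a => by simp [sm]
      smul_add := fun a v w => by
        simp only [sm, map_add]
        module
      add_smul := fun a c v => by
        simp only [sm, E, QuadraticAlgebra.re_add, QuadraticAlgebra.im_add, map_add]
        module
      zero_smul := fun v => by simp [sm, E] }
  haveI : IsScalarTower k E V := IsScalarTower.of_algebraMap_smul fun c v => by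
    simp [sm, E]
  haveI : Module.Finite k V := Module.Finite.trans L V
  haveI : Module.Finite E V := Module.Finite.of_restrictScalars_finite k E V
  have rk : finrank E V = finrank L V := by
    have a := finrank_mul_finrank k E V
    rw [← finrank_mul_finrank k L V, S.two, QuadraticAlgebra.finrank_eq_two] at a
    omega
  choose f1 h1 using fun v : V => fix S (t := y * S.σ y * be S v -
    (S.σ x * S.σ y * S.q v + x * y * S.σ (S.q v))) (by simp [mul_comm, add_comm])
  choose f2 h2 using fun v : V => fix S (t := S.σ y * S.q v + y * S.σ (S.q v)) (by simp [add_comm])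
  have ex : ∀ {a c : E}, algebraMap k L a.re = algebraMap k L c.re →
      algebraMap k L a.im = algebraMap k L c.im → a = c := fun a c =>
    QuadraticAlgebra.ext ((algebraMap k L).injective a) ((algebraMap k L).injective c)
  let f : V → E := fun v => ⟨f1 v, f2 v⟩
  have p1 : ∀ v w, algebraMap k L (polar f v w).re =
      y * S.σ y * (polar S.q v (S.J w) + S.σ (polar S.q v (S.J w))) -
        (S.σ x * S.σ y * polar S.q v w + x * y * S.σ (polar S.q v w)) := fun v w => by
    simp only [polar, f, E, QuadraticAlgebra.re_sub, map_sub, h1, be_add]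
    ring
  have p2 : ∀ v w, algebraMap k L (polar f v w).im =
      S.σ y * polar S.q v w + y * S.σ (polar S.q v w) := fun v w => by
    simp only [polar, f, E, QuadraticAlgebra.im_sub, map_sub, h2]
    ring
  let Q : QuadraticForm E V := QuadraticMap.ofPolar f
    (fun a v => by
      apply ex <;> simp only [f, E, sm, smul_eq_mul, QuadraticAlgebra.re_mul, QuadraticAlgebra.im_mul,
        map_add, map_mul, map_neg, ht, hm, h1, h2, q_pl, be_pl, AlgEquiv.commutes, ss, s_bb,
        s_be] <;> ring)
    (fun v v' w => by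
      apply ex <;> simp only [E, QuadraticAlgebra.re_add, QuadraticAlgebra.im_add, p1, p2, map_add,
        polar_add_left] <;> ring)
    fun a v w => by
      apply ex <;> simp only [E, sm, smul_eq_mul, QuadraticAlgebra.re_mul, QuadraticAlgebra.im_mul,
        map_add, map_mul, map_neg, ht, hm, p1, p2, polar_add_left, polar_smul_left, B_JJ, B_Jl S v w,
        AlgEquiv.commutes, ss, s_bb] <;> ring
  obtain ⟨v, v0, e⟩ := iso H (Glob.fin hk) Q (by omega) fun ψ => by
    let φ := ψ.comp (algebraMap k E)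
    have pv : ∀ a c, ψ ⟨a, c⟩ = φ a + φ c * ψ QuadraticAlgebra.omega := fun a c => by
      rw [QuadraticAlgebra.mk_eq_add_smul_omega, Algebra.smul_def, map_add, map_mul]
      rfl
    have o := pv (-m) t
    rw [← QuadraticAlgebra.omega_mul_omega_eq_mk, map_mul, map_neg] at o
    obtain ⟨θ, t1⟩ := ex_mv S
    obtain ⟨d, hd⟩ := exn S (θ - S.σ θ)
    obtain ⟨n, hn⟩ := exn S y
    have ps : ∀ {z : L} {u : k}, z ≠ 0 → algebraMap k L u = z * S.σ z → 0 < φ u := fun a c =>
      (nn S hL φ c).lt_of_ne' (by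
        rintro e
        rw [(map_eq_zero _).1 e, map_zero] at c
        exact mul_ne_zero a (by simpa using a) c.symm)
    have d0 := ps (sub_ne_zero.2 t1.symm) hd
    have dn := mul_pos d0 (ps hy hn)
    have key : ∀ v p, algebraMap k L p = be S v →
        ψ (Q ((θ - S.σ θ) • v)) + φ d * ψ (Q v) = 2 * (φ d * φ n) * φ p := fun v p hp => by
      have a1 : f1 ((θ - S.σ θ) • v) = 2 * (d * n) * p - d * f1 v := (algebraMap k L).injective (by
        simp only [h1, be_smul, QuadraticMap.map_smul, smul_eq_mul, map_sub, map_mul, map_ofNat, hd,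
          hn, hp, ss]
        ring)
      have a2 : f2 ((θ - S.σ θ) • v) = -(d * f2 v) := (algebraMap k L).injective (by
        simp only [h2, QuadraticMap.map_smul, smul_eq_mul, map_sub, map_mul, map_neg, hd, ss]
        ring)
      change ψ ⟨_, _⟩ + _ * ψ ⟨_, _⟩ = _
      rw [pv, pv (f1 v), a1, a2]
      simp only [map_sub, map_mul, map_neg, map_ofNat]
      ring
    obtain ⟨v, w, p, r, hp, hr, s⟩ := hr φ (by nlinarith [sq_nonneg (2 * ψ QuadraticAlgebra.omega - φ t)])
    constructor <;> by_contra! n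
    · have g := fun v p hp => nonpos_of_mul_nonpos_right ((key v p hp).ge.trans (add_nonpos (n _)
        (mul_nonpos_of_nonneg_of_nonpos d0.le (n _)))) (mul_pos two_pos dn)
      exact (mul_nonneg_of_nonpos_of_nonpos (g v p hp) (g w r hr)).not_gt s
    · have g := fun v p hp => nonneg_of_mul_nonneg_right ((add_nonneg (n _)
        (mul_nonneg d0.le (n _))).trans (key v p hp).le) (mul_pos two_pos dn)
      exact (mul_nonneg (g v p hp) (g w r hr)).not_gt s
  refine ⟨v, v0, ?_, ?_⟩
  · rw [← h2, show f2 v = 0 from congrArg QuadraticAlgebra.im e, map_zero]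
  · rw [← h1, show f1 v = 0 from congrArg QuadraticAlgebra.re e, map_zero]

theorem st3_of (H : HM5) : ST3 := by
  intro k L V _ _ _ _ _ _ S hk hL h6 a l hl h
  obtain ⟨x, y, e⟩ := ex0 S H hk fun φ => (h φ).imp_right fun ⟨e, a, b⟩ => (signs S hL φ a b).1
  obtain ⟨x, y, c, ⟨c1, c2, c3⟩, y0, x0, hr⟩ := exB S hk hL hl e
  obtain ⟨c, rfl⟩ := fix S c1
  obtain ⟨t, ht⟩ := fix S (t := x + S.σ x) (by simp [add_comm])
  obtain ⟨v, v0, e1, e2⟩ := core S H hk h6 ht (m := l * (c * c)) (by simp [c3]) y0 hL fun φ i => by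
    obtain ⟨n, hn⟩ := exn S y
    obtain ⟨n', hn'⟩ := exn S (x - S.σ x)
    obtain ⟨τ, u⟩ := ex_tu S hL φ
    have e1 : φ t ^ 2 - 4 * φ (l * (c * c)) = 4 * (φ S.b * φ n) - φ n' := by
      have := congrArg φ ((algebraMap k L).injective (a₁ := t ^ 2 - 4 * (l * (c * c)))
        (a₂ := 4 * (S.b * n) - n') (by
          simp only [map_sub, map_pow, map_mul, map_ofNat, ht, hn, hn', ss, ← c3, bb]
          ring))
      simpa only [map_sub, map_pow, map_mul, map_ofNat] using this
    have n0 : φ n ≠ 0 := fun e => by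
      rw [(map_eq_zero _).1 e, map_zero] at hn
      exact mul_ne_zero y0 (by simpa using y0) hn.symm
    have n1 := (nn S hL φ hn).lt_of_ne' n0
    have n2 := nn S hL φ hn'
    have b0 : φ S.b ≠ 0 := fun e => bb_ne S (by rw [bb, (map_eq_zero _).1 e, map_zero])
    have b1 : 0 < φ S.b := lt_of_le_of_ne (by nlinarith) b0.symm
    obtain ⟨e, a1, a2⟩ := (h φ).resolve_left fun l0 => by
      have := hr φ τ u l0 b1
      rw [← ht, ← map_mul, ← map_mul, ← map_pow, ← map_ofNat (algebraMap k L), ← map_mul, ← map_sub,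
        u.1, Complex.ofReal_re, map_sub, map_pow, map_mul, map_ofNat] at this
      linarith
    exact (signs S hL φ a1 a2).2
  have y1 : S.σ y ≠ 0 := by simpa using y0
  have e3 : y * be S v = (S.σ x - x) * S.q v :=
    mul_left_cancel₀ y1 (by linear_combination e2 + x * e1)
  obtain ⟨w, s, s0, s1, s2, s3⟩ : ∃ w s, s ≠ 0 ∧ S.σ s = -s ∧ S.q w = y * s ∧
      be S w = (S.σ x - x) * s := by
    by_cases q0 : S.q v = 0
    · obtain ⟨θ, t1⟩ := ex_mv S
      obtain ⟨w, a1, a2⟩ := all_val S v0 q0 (by simpa [q0, y0] using e3) (y * (θ - S.σ θ))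
        (C := (S.σ x - x) * (θ - S.σ θ)) (by simp only [map_mul, map_sub, ss]; ring)
      exact ⟨w, _, sub_ne_zero.2 t1.symm, by simp, a1, a2⟩
    · refine ⟨v, S.q v / y, div_ne_zero q0 y0, ?_, by field_simp, ?_⟩
      · rw [map_div₀]
        field_simp
        linear_combination e1
      · field_simp
        linear_combination e3
  have t0 : t ≠ 0 := fun e => x0 (by rw [← ht, e, map_zero])
  have c0 : c ≠ 0 := fun e => c2 (by rw [e, map_zero])
  refine ⟨w, -(x * s), t / (l * c), div_ne_zero t0 (mul_ne_zero hl c0), fun e => x0 ?_, fun e => ?_,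
    ?_, ?_⟩
  · obtain ⟨a1, a2⟩ := dl_zero S e
    rw [s2, mul_eq_zero_iff_right (mul_ne_zero y0 s0)] at a2
    rw [s3, mul_eq_zero_iff_right s0] at a1
    linear_combination a1 + x * a2
  · simp only [map_neg, map_mul, s1] at e
    exact mul_ne_zero x0 s0 (by linear_combination -e)
  · change _ = be S w
    simp only [map_neg, map_mul, s1, s3]
    ring
  · have l0 : algebraMap k L l ≠ 0 := by simpa using hl
    simp only [map_neg, map_mul, map_pow, map_div₀, s1, s2, ht, bb] at c3 ⊢
    field_simp
    linear_combination -(x + S.σ x) ^ 2 * c3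

theorem st3 : ST3 := st3_of P011UM5.hm5

end Vale.Agent.P011UD6
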